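import Vale.Agent.P105.Singular
import Vale.Agent.P105.NotPisot

/-! A singular Bernoulli convolution whose parameter is not the reciprocal of a Pisot number. -/

namespace Vale.Agent.Results.P105.SalemSingular

open Vale.Agent.P105 MeasureTheory

/-- There is `λ` in `(1/2, 1)` with `1/λ` not Pisot such that the Bernoulli convolution `ν_λ` is
singular with respect to Lebesgue measure. Moreover `1/λ` may be taken to be the Salem number that
is the root greater than `1` of `x⁴ - x³ - x² - x + 1`. -/
theorem result :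
    ∃ lam : ℝ, 1 / 2 < lam ∧ lam < 1 ∧
      lam⁻¹ ^ 4 - lam⁻¹ ^ 3 - lam⁻¹ ^ 2 - lam⁻¹ + 1 = 0 ∧
      ¬ IsPisot lam⁻¹ ∧ bernoulliConv lam ⟂ₘ volume := by
  refine ⟨theta⁻¹, ?_, ?_, ?_, ?_, nu_mutuallySingular⟩
  · rw [one_div]
    exact inv_strictAnti₀ theta_pos (by linarith [theta_bounds.2])
  · linarith [inv_theta_le]
  · rw [inv_inv]; exact quartic_theta
  · rw [inv_inv]; exact theta_not_isPisot

end Vale.Agent.Results.P105.SalemSingular
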